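import Vale.Agent.P181.H382.Defs
import Mathlib.Analysis.Complex.ExponentialBounds

set_option autoImplicit false

/-!
# P181, LL: two long rows, `b ≥ (1 + δ) a`, uniform in the length of row two

`D₂ ≥ C Λ ^ c a` is enough when `b ≤ Λ a` and `λ₂ ≥ a² / Λ`: no logarithm.
-/

namespace Vale.Agent.P181.H382.H146

open Vale.Agent.P181.H280 (plethMult)
open Vale.Agent.P181.TL (KK dn2)

/-- **(L7u)** the form of (L7) which is uniform in `Λ`. -/
def TwoLongU : Prop := ∀ δ : ℝ, 0 < δ → ∃ (C : ℝ) (c : ℕ), 1 ≤ C ∧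
  ∀ (a b k : ℕ) (lam : Fin (k + 3) → ℕ) (Λ : ℝ), Antitone lam → ∑ i, lam i = a * b → 1 ≤ Λ →
  C * Λ ^ c ≤ a → (1 + δ) * a ≤ b → (b : ℝ) ≤ Λ * a → (a : ℝ) ^ 2 ≤ Λ * lam 1 →
  C * Λ ^ c * a ≤ dn2 lam → C * Λ ^ c * dn2 lam ≤ (a : ℝ) ^ 2 →
  plethMult a b (k + 3) lam ≤ plethMult b a (k + 3) lam

/-- A binomial coefficient. -/
lemma choose_le (a b : ℕ) (ha : 0 < a) :
    ((a + b).choose a : ℝ) ≤ (3 * (((a : ℝ) + b) / a)) ^ a := by
  have ha' : (0 : ℝ) < a := by exact_mod_cast ha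
  have h1 : ((a + b).choose a : ℝ) ≤ ((a + b : ℕ) : ℝ) ^ a / (a.factorial : ℝ) :=
    Nat.choose_le_pow_div a (a + b)
  have h2 : (a : ℝ) ^ a / (a.factorial : ℝ) ≤ Real.exp a :=
    Real.pow_div_factorial_le_exp _ ha'.le a
  have h3 : Real.exp a ≤ 3 ^ a := by
    have : Real.exp (a : ℝ) = Real.exp 1 ^ a := by
      rw [← Real.exp_nat_mul, mul_one]
    rw [this]
    exact pow_le_pow_left₀ (Real.exp_pos 1).le (by linarith [Real.exp_one_lt_d9]) a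
  have hf : (0 : ℝ) < (a.factorial : ℝ) := by exact_mod_cast a.factorial_pos
  have h4 : ((a + b : ℕ) : ℝ) ^ a / (a.factorial : ℝ) =
      (((a : ℝ) + b) / a) ^ a * ((a : ℝ) ^ a / (a.factorial : ℝ)) := by
    rw [div_pow]
    push_cast
    field_simp
  rw [mul_pow]
  calc ((a + b).choose a : ℝ) ≤ ((a + b : ℕ) : ℝ) ^ a / (a.factorial : ℝ) := h1
    _ = (((a : ℝ) + b) / a) ^ a * ((a : ℝ) ^ a / (a.factorial : ℝ)) := h4
    _ ≤ (((a : ℝ) + b) / a) ^ a * 3 ^ a :=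
        mul_le_mul_of_nonneg_left (h2.trans h3) (by positivity)
    _ = 3 ^ a * (((a : ℝ) + b) / a) ^ a := mul_comm _ _

lemma choose_le' (a t : ℕ) (ha : 0 < a) :
    ((a + t - 1).choose t : ℝ) ≤ (3 * (((a : ℝ) + t) / a)) ^ a := by
  refine le_trans ?_ (choose_le a t ha)
  obtain ⟨a, rfl⟩ : ∃ a', a = a' + 1 := ⟨a - 1, by omega⟩
  have h1 : (a + 1 + t - 1).choose t = (a + t).choose a := by
    rw [show a + 1 + t - 1 = a + t by omega]
    exact (Nat.choose_symm_add).symm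
  have h2 : (a + 1 + t).choose (a + 1) = (a + t).choose a + (a + t).choose (a + 1) := by
    rw [show a + 1 + t = (a + t) + 1 by omega, Nat.choose_succ_succ]
  rw [h1, h2]
  push_cast
  linarith [Nat.cast_nonneg (α := ℝ) ((a + t).choose (a + 1))]

lemma poly_le (a : ℕ) (ha : 1000 ≤ a) : 8 * a ^ 6 ≤ 2 ^ a := by
  obtain ⟨k, hk⟩ : ∃ k, k = a / 14 := ⟨_, rfl⟩
  have h1 : 14 * k ≤ a := by omega
  have h2 : a ≤ 14 * k + 13 := by omega
  have hk4 : 4 ≤ k := by omega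
  have h3 : k < 2 ^ k := Nat.lt_two_pow_self
  have h4 : a ≤ 16 * 2 ^ k := by omega
  have h5 : a ^ 6 ≤ (16 * 2 ^ k) ^ 6 := Nat.pow_le_pow_left h4 6
  have h6 : 8 * (16 * 2 ^ k) ^ 6 = 2 ^ (27 + 6 * k) := by
    rw [mul_pow, ← pow_mul, pow_add, mul_comm k 6]
    norm_num
    ring
  calc 8 * a ^ 6 ≤ 8 * (16 * 2 ^ k) ^ 6 := Nat.mul_le_mul_left _ h5
    _ = 2 ^ (27 + 6 * k) := h6
    _ ≤ 2 ^ a := Nat.pow_le_pow_right (by norm_num) (by omega)

/-- The hypotheses on the parameters. -/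
structure Hyp (a b t l1 l2 D P Q G : ℕ) : Prop where
  hD : 14 ≤ D
  hP : 1 ≤ P
  hQ : Q = 1000 * D * P ^ 2
  hG : Q * Q ≤ G
  hGa : G ≤ a
  hGt : G * a ≤ t
  htG : G * t ≤ a * a
  hbP : b ≤ P * a
  hab : (D + 8) * a ≤ D * b
  hl1 : a * a ≤ P * l1
  hl2 : l2 ≤ t

section
variable {a b t l1 l2 D P Q G : ℕ}

lemma Hyp.Q0 (H : Hyp a b t l1 l2 D P Q G) : 14000 ≤ Q := by
  have h1 : 1 ≤ P ^ 2 := Nat.one_le_pow _ _ H.hP
  have h2 : 1000 * 14 * 1 ≤ 1000 * D * P ^ 2 :=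
    Nat.mul_le_mul (Nat.mul_le_mul_left _ H.hD) h1
  rw [H.hQ]
  exact h2

lemma Hyp.DQ (H : Hyp a b t l1 l2 D P Q G) : 1000 * D ≤ Q := by
  rw [H.hQ]
  exact Nat.le_mul_of_pos_right _ (Nat.pow_pos (by have := H.hP; omega))

lemma Hyp.PQ (H : Hyp a b t l1 l2 D P Q G) : 14000 * P ≤ Q := by
  have h1 : P ≤ P ^ 2 := by
    rw [pow_two]
    exact Nat.le_mul_of_pos_left _ (by have := H.hP; omega)
  rw [H.hQ]
  exact Nat.mul_le_mul (by have := H.hD; omega) h1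

lemma Hyp.DPP (H : Hyp a b t l1 l2 D P Q G) : 1000 * (P ^ 2 * D) = Q := by
  rw [H.hQ]; ring

lemma Hyp.a0 (H : Hyp a b t l1 l2 D P Q G) : Q * Q ≤ a := H.hG.trans H.hGa

lemma Hyp.a1 (H : Hyp a b t l1 l2 D P Q G) : 14000 * Q ≤ a :=
  (Nat.mul_le_mul_right Q H.Q0).trans H.a0

lemma Hyp.G1 (H : Hyp a b t l1 l2 D P Q G) : 14000 * Q ≤ G :=
  (Nat.mul_le_mul_right Q H.Q0).trans H.hG

/-- The number `e`. -/
lemma Hyp.e (H : Hyp a b t l1 l2 D P Q G) :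
    ∃ e, Q * e ≤ a ∧ Q ≤ e ∧ a ≤ 2 * (Q * e) := by
  have hQ0 := H.Q0
  have h1 : Q * (a / Q) ≤ a := Nat.mul_div_le a Q
  have h2 : a < Q * (a / Q + 1) := Nat.lt_mul_div_succ a (by omega)
  have h3 : Q ≤ a / Q := (Nat.le_div_iff_mul_le (by omega)).2 H.a0
  refine ⟨a / Q, h1, h3, ?_⟩
  have h4 : Q * (a / Q + 1) = Q * (a / Q) + Q := by ring
  have h5 : Q * 1 ≤ Q * (a / Q) := Nat.mul_le_mul_left _ (by omega)
  omega

/-- The number `K`. -/
lemma Hyp.K (H : Hyp a b t l1 l2 D P Q G) {e : ℕ} (he1 : Q * e ≤ a) :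
    ∃ K₀, e * b ≤ (K₀ + 1) * (a - 12) ∧ 500 * (D * P) * K₀ ≤ a := by
  have hQ0 := H.Q0
  have ha1 := H.a1
  have hapos : 0 < a := by omega
  have ha12 : 0 < a - 12 := by omega
  have hP := H.hP
  have hK1 : e * b ≤ (e * b / (a - 12) + 1) * (a - 12) := by
    rw [mul_comm (_ + 1)]
    exact (Nat.lt_mul_div_succ (e * b) ha12).le
  have hK2 : e * b / (a - 12) * (a - 12) ≤ e * b := Nat.div_mul_le_self _ _
  refine ⟨e * b / (a - 12), hK1, ?_⟩
  generalize e * b / (a - 12) = K₀ at hK2 ⊢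
  have h1 : Q * (K₀ * (a - 12)) ≤ a * (P * a) := by
    calc Q * (K₀ * (a - 12)) ≤ Q * (e * b) := Nat.mul_le_mul_left _ hK2
      _ = (Q * e) * b := by ring
      _ ≤ a * (P * a) := Nat.mul_le_mul he1 H.hbP
  have h2 : a ≤ 2 * (a - 12) := by omega
  have h3 : (Q * K₀) * a ≤ (2 * (P * a)) * a := by
    calc (Q * K₀) * a ≤ (Q * K₀) * (2 * (a - 12)) := Nat.mul_le_mul_left _ h2
      _ = 2 * (Q * (K₀ * (a - 12))) := by ring
      _ ≤ 2 * (a * (P * a)) := Nat.mul_le_mul_left _ h1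
      _ = (2 * (P * a)) * a := by ring
  have hK3 : Q * K₀ ≤ 2 * (P * a) := Nat.le_of_mul_le_mul_right h3 hapos
  have h4 : (2 * P) * (500 * (D * P) * K₀) ≤ (2 * P) * a := by
    calc (2 * P) * (500 * (D * P) * K₀) = (1000 * D * P ^ 2) * K₀ := by ring
      _ = Q * K₀ := by rw [H.hQ]
      _ ≤ 2 * (P * a) := hK3
      _ = (2 * P) * a := by ring
  exact Nat.le_of_mul_le_mul_left h4 (by omega)

/-- The number `h`. -/
lemma Hyp.h (H : Hyp a b t l1 l2 D P Q G) {e R : ℕ} (he3 : a ≤ 2 * (Q * e)) (hR2 : e ≤ 5 * R)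
    (hR0 : 0 < R) : ∃ h₀, l2 ≤ (h₀ + 1) * R ∧ h₀ * R ≤ t ∧ 100 * D * h₀ ≤ a := by
  have hQ0 := H.Q0
  have ha1 := H.a1
  have hapos : 0 < a := by omega
  have hh1 : l2 ≤ (l2 / R + 1) * R := by
    rw [mul_comm]; exact (Nat.lt_mul_div_succ l2 hR0).le
  have hh2 : l2 / R * R ≤ l2 := Nat.div_mul_le_self _ _
  refine ⟨l2 / R, hh1, hh2.trans H.hl2, ?_⟩
  generalize l2 / R = h₀ at hh2 ⊢
  have h1 : G * (h₀ * R) ≤ a * a := (Nat.mul_le_mul_left _ (hh2.trans H.hl2)).trans H.htG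
  have h2 : a ≤ 10 * Q * R := by
    calc a ≤ 2 * (Q * e) := he3
      _ ≤ 2 * (Q * (5 * R)) := Nat.mul_le_mul_left _ (Nat.mul_le_mul_left _ hR2)
      _ = 10 * Q * R := by ring
  have h3 : (G * h₀) * a ≤ (10 * Q * a) * a := by
    calc (G * h₀) * a ≤ (G * h₀) * (10 * Q * R) := Nat.mul_le_mul_left _ h2
      _ = 10 * Q * (G * (h₀ * R)) := by ring
      _ ≤ 10 * Q * (a * a) := Nat.mul_le_mul_left _ h1
      _ = (10 * Q * a) * a := by ring
  have hh3 : G * h₀ ≤ 10 * Q * a := Nat.le_of_mul_le_mul_right h3 hapos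
  have h4 : (10 * Q) * (100 * D * h₀) ≤ (10 * Q) * a := by
    have h5 : (10 * Q) * (100 * D) ≤ G := by
      calc (10 * Q) * (100 * D) = Q * (1000 * D) := by ring
        _ ≤ Q * Q := Nat.mul_le_mul_left _ H.DQ
        _ ≤ G := H.hG
    calc (10 * Q) * (100 * D * h₀) = ((10 * Q) * (100 * D)) * h₀ := by ring
      _ ≤ G * h₀ := Nat.mul_le_mul_right _ h5
      _ ≤ (10 * Q) * a := hh3
  exact Nat.le_of_mul_le_mul_left h4 (by omega)

/-- The number `n`. -/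
lemma Hyp.n (H : Hyp a b t l1 l2 D P Q G) {K₀ h₀ : ℕ} (hK4 : 500 * (D * P) * K₀ ≤ a)
    (hh4 : 100 * D * h₀ ≤ a) :
    ∃ n, n + (9 * (K₀ + 1) + 2 * (h₀ + 1)) = b ∧ (D + 7) * a ≤ D * n ∧ a ≤ n ∧ n ≤ P * a := by
  have hQ0 := H.Q0
  have ha1 := H.a1
  have hD := H.hD
  have hP := H.hP
  have hDQ := H.DQ
  have hab := H.hab
  have hn1 : D * (9 * (K₀ + 1) + 2 * (h₀ + 1)) ≤ a := by
    have h1 : 500 * (D * K₀) ≤ a := by
      refine le_trans ?_ hK4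
      calc 500 * (D * K₀) ≤ (500 * (D * K₀)) * P := Nat.le_mul_of_pos_right _ (by omega)
        _ = 500 * (D * P) * K₀ := by ring
    have h2 : 100 * (D * h₀) ≤ a := by
      calc 100 * (D * h₀) = 100 * D * h₀ := by ring
        _ ≤ a := hh4
    have h4 : D * (9 * (K₀ + 1) + 2 * (h₀ + 1)) = 9 * (D * K₀) + 2 * (D * h₀) + 11 * D := by ring
    rw [h4]
    omega
  have e1 : (D + 8) * a = D * a + 8 * a := by ring
  have hn2 : 9 * (K₀ + 1) + 2 * (h₀ + 1) ≤ b := by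
    have h1 : D * (9 * (K₀ + 1) + 2 * (h₀ + 1)) ≤ D * b := by omega
    exact Nat.le_of_mul_le_mul_left h1 (by omega)
  obtain ⟨n, hn⟩ : ∃ n, n + (9 * (K₀ + 1) + 2 * (h₀ + 1)) = b := ⟨b - _, Nat.sub_add_cancel hn2⟩
  have e2 : D * n + D * (9 * (K₀ + 1) + 2 * (h₀ + 1)) = D * b := by rw [← hn]; ring
  have e3 : (D + 7) * a = D * a + 7 * a := by ring
  have hn3 : (D + 7) * a ≤ D * n := by omega
  have hn4 : a ≤ n := by
    have h1 : D * a ≤ D * n := by omega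
    exact Nat.le_of_mul_le_mul_left h1 (by omega)
  exact ⟨n, hn, hn3, hn4, le_trans (by omega) H.hbP⟩

/-- The number `X`. -/
lemma Hyp.X (H : Hyp a b t l1 l2 D P Q G) {n m : ℕ} (hm : m = 8 * Q * P) (hnb : n ≤ P * a)
    (hn0 : 0 < n) : ∃ X, 1 ≤ X ∧ X * (n * m * D) ≤ t ∧ t ≤ X * a * (Q * Q) := by
  have hQ0 := H.Q0
  have hD := H.hD
  have hP := H.hP
  have hDPP := H.DPP
  have hnmD : n * m * D ≤ t := by
    calc n * m * D ≤ (P * a) * m * D :=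
          Nat.mul_le_mul_right _ (Nat.mul_le_mul_right _ hnb)
      _ = Q * (8 * (P ^ 2 * D)) * a := by rw [hm]; ring
      _ ≤ Q * Q * a := Nat.mul_le_mul_right _ (Nat.mul_le_mul_left _ (by omega))
      _ ≤ G * a := Nat.mul_le_mul_right _ H.hG
      _ ≤ t := H.hGt
  have hm0 : 0 < m := by
    rw [hm]
    exact Nat.mul_pos (by omega) (by omega)
  have hpos : 0 < n * m * D := Nat.mul_pos (Nat.mul_pos hn0 hm0) (by omega)
  have hX1 : 1 ≤ t / (n * m * D) := (Nat.le_div_iff_mul_le hpos).2 (by omega)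
  have hX2 : t / (n * m * D) * (n * m * D) ≤ t := Nat.div_mul_le_self _ _
  have h1 : t < (n * m * D) * (t / (n * m * D) + 1) := Nat.lt_mul_div_succ t hpos
  refine ⟨t / (n * m * D), hX1, hX2, ?_⟩
  generalize t / (n * m * D) = X at hX1 h1 ⊢
  have h2 : (n * m * D) * (X + 1) ≤ (n * m * D) * (2 * X) := Nat.mul_le_mul_left _ (by omega)
  calc t ≤ (n * m * D) * (2 * X) := by omega
    _ = 2 * X * (n * m * D) := by ring
    _ ≤ 2 * X * ((P * a) * m * D) :=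
        Nat.mul_le_mul_left _ (Nat.mul_le_mul_right _ (Nat.mul_le_mul_right _ hnb))
    _ = X * a * (Q * (16 * (P ^ 2 * D))) := by rw [hm]; ring
    _ ≤ X * a * (Q * Q) :=
        Nat.mul_le_mul_left _ (Nat.mul_le_mul_left _ (by omega))

lemma Hyp.c8 (H : Hyp a b t l1 l2 D P Q G) {n m X : ℕ} (hX1 : 1 ≤ X) (hm1 : 1 ≤ m)
    (hX2 : X * (n * m * D) ≤ t) : (m * (X + 1) + X) * n ≤ t := by
  have hD := H.hD
  have h1 : (m * (X + 1) + X) * n ≤ 3 * (X * (n * m)) := by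
    have h2 : m ≤ m * X := Nat.le_mul_of_pos_right _ (by omega)
    have h3 : X ≤ m * X := Nat.le_mul_of_pos_left _ (by omega)
    calc (m * (X + 1) + X) * n = (m * X + m + X) * n := by ring
      _ ≤ (m * X + m * X + m * X) * n := Nat.mul_le_mul_right _ (by omega)
      _ = 3 * (X * (n * m)) := by ring
  refine h1.trans (le_trans ?_ hX2)
  calc 3 * (X * (n * m)) ≤ D * (X * (n * m)) := Nat.mul_le_mul_right _ (by omega)
    _ = X * (n * m * D) := by ring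

lemma Hyp.c9 (H : Hyp a b t l1 l2 D P Q G) {n m X : ℕ} (hm : m = 8 * Q * P)
    (hn3 : (D + 7) * a ≤ D * n) (hX2 : X * (n * m * D) ≤ t) :
    t / n + m * (X + 1) + 1 ≤ t / a := by
  have hQ0 := H.Q0
  have hD := H.hD
  have hP := H.hP
  have ha1 := H.a1
  have hapos : 0 < a := by omega
  rw [Nat.le_div_iff_mul_le hapos]
  have hA1 : t / n * n ≤ t := Nat.div_mul_le_self _ _
  generalize t / n = A at hA1 ⊢
  have e1 : (D + 7) * a * A ≤ D * t := by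
    calc (D + 7) * a * A ≤ D * n * A := Nat.mul_le_mul_right _ hn3
      _ = D * (A * n) := by ring
      _ ≤ D * t := Nat.mul_le_mul_left _ hA1
  have e2 : (D + 7) * a * (m * X) ≤ t := by
    calc (D + 7) * a * (m * X) ≤ D * n * (m * X) := Nat.mul_le_mul_right _ hn3
      _ = X * (n * m * D) := by ring
      _ ≤ t := hX2
  have hG : (D + 7) * (m + 1) ≤ G := by
    have g1 : D + 7 ≤ 2 * D := by omega
    have g0 : 1 ≤ Q * P := Nat.mul_pos (by omega) (by omega)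
    have g2 : m + 1 ≤ 9 * (Q * P) := by
      have : m = 8 * (Q * P) := by rw [hm]; ring
      omega
    have g3 : D * P ≤ D * P ^ 2 := by
      refine Nat.mul_le_mul_left _ ?_
      rw [pow_two]
      exact Nat.le_mul_of_pos_left _ (by omega)
    have g4 : 18 * (D * P) ≤ Q := by
      have : 1000 * (D * P ^ 2) = Q := by rw [H.hQ]; ring
      omega
    calc (D + 7) * (m + 1) ≤ (2 * D) * (9 * (Q * P)) := Nat.mul_le_mul g1 g2
      _ = Q * (18 * (D * P)) := by ring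
      _ ≤ Q * Q := Nat.mul_le_mul_left _ g4
      _ ≤ G := H.hG
  have e3 : (D + 7) * a * (m + 1) ≤ t := by
    calc (D + 7) * a * (m + 1) = ((D + 7) * (m + 1)) * a := by ring
      _ ≤ G * a := Nat.mul_le_mul_right _ hG
      _ ≤ t := H.hGt
  have h1 : (D + 7) * ((A + m * (X + 1) + 1) * a) ≤ (D + 7) * t := by
    calc (D + 7) * ((A + m * (X + 1) + 1) * a)
        = (D + 7) * a * A + (D + 7) * a * (m * X) + (D + 7) * a * (m + 1) := by ring
      _ ≤ D * t + t + t := by omega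
      _ ≤ D * t + 7 * t := by omega
      _ = (D + 7) * t := by ring
  exact Nat.le_of_mul_le_mul_left h1 (by omega)

lemma Hyp.c11 (H : Hyp a b t l1 l2 D P Q G) {e n m R : ℕ} (hm : m = 8 * Q * P)
    (heQ : Q ≤ e) (he3 : a ≤ 2 * (Q * e)) (hnb : n ≤ P * a) (hR1 : 4 * R ≤ e) :
    t / a + n / m + 2 + R ≤ e := by
  have hQ0 := H.Q0
  have hP := H.hP
  have ha1 := H.a1
  have hapos : 0 < a := by omega
  have hA1 : t / a * a ≤ t := Nat.div_mul_le_self _ _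
  have hB1 : n / m * m ≤ n := Nat.div_mul_le_self _ _
  generalize t / a = A at hA1 ⊢
  generalize n / m = B at hB1 ⊢
  have hA2 : G * A ≤ a := by
    have : (G * A) * a ≤ a * a := by
      calc (G * A) * a = G * (A * a) := by ring
        _ ≤ G * t := Nat.mul_le_mul_left _ hA1
        _ ≤ a * a := H.htG
    exact Nat.le_of_mul_le_mul_right this hapos
  have hA3 : 16 * A ≤ 2 * e := by
    have h1 : Q * (16 * A) ≤ Q * (2 * e) := by
      calc Q * (16 * A) = (16 * Q) * A := by ring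
        _ ≤ G * A := Nat.mul_le_mul_right _ (by have := H.G1; omega)
        _ ≤ a := hA2
        _ ≤ 2 * (Q * e) := he3
        _ = Q * (2 * e) := by ring
    exact Nat.le_of_mul_le_mul_left h1 (by omega)
  have hB2 : 8 * B ≤ 2 * e := by
    have h1 : (P * Q) * (8 * B) ≤ (P * Q) * (2 * e) := by
      calc (P * Q) * (8 * B) = B * m := by rw [hm]; ring
        _ ≤ n := hB1
        _ ≤ P * a := hnb
        _ ≤ P * (2 * (Q * e)) := Nat.mul_le_mul_left _ he3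
        _ = (P * Q) * (2 * e) := by ring
    exact Nat.le_of_mul_le_mul_left h1 (Nat.mul_pos (by omega) (by omega))
  omega

lemma Hyp.c12 (H : Hyp a b t l1 l2 D P Q G) {e n m R h₀ K₀ : ℕ} (hm : m = 8 * Q * P)
    (he1 : Q * e ≤ a) (hnb : n ≤ P * a) (hR2 : e ≤ 5 * R) (hh2 : h₀ * R ≤ t)
    (hK4 : 500 * (D * P) * K₀ ≤ a) :
    n * (n / m) + 2 * e * (h₀ + 1) + l2 + (K₀ + 1) * (5 * a - 6) + 9 * a ≤ l1 := by
  have hQ0 := H.Q0
  have hP := H.hP
  have hD := H.hD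
  have ha1 := H.a1
  have hB1 : n / m * m ≤ n := Nat.div_mul_le_self _ _
  generalize n / m = B at hB1 ⊢
  have f2 : 8000 * (P * (n * B)) ≤ a * a := by
    have h1 : P * (8 * Q * (n * B)) ≤ P * (P * (a * a)) := by
      calc P * (8 * Q * (n * B)) = n * (B * m) := by rw [hm]; ring
        _ ≤ n * n := Nat.mul_le_mul_left _ hB1
        _ ≤ (P * a) * (P * a) := Nat.mul_le_mul hnb hnb
        _ = P * (P * (a * a)) := by ring
    have f1 : 8 * Q * (n * B) ≤ P * (a * a) := Nat.le_of_mul_le_mul_left h1 (by omega)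
    have h2 : P * (8000 * (P * (n * B))) ≤ P * (a * a) := by
      calc P * (8000 * (P * (n * B))) ≤ D * (P * (8000 * (P * (n * B)))) :=
            Nat.le_mul_of_pos_left _ (by omega)
        _ = 8 * (1000 * D * P ^ 2) * (n * B) := by ring
        _ = 8 * Q * (n * B) := by rw [H.hQ]
        _ ≤ P * (a * a) := f1
    exact Nat.le_of_mul_le_mul_left h2 (by omega)
  have hea : 2 * e ≤ a := by
    refine le_trans ?_ he1
    exact Nat.mul_le_mul_right _ (by omega)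
  have f3 : 2 * e * (h₀ + 1) ≤ 10 * t + a := by
    have h1 : 2 * e * h₀ ≤ 10 * (h₀ * R) := by
      calc 2 * e * h₀ ≤ 2 * (5 * R) * h₀ :=
            Nat.mul_le_mul_right _ (Nat.mul_le_mul_left _ hR2)
        _ = 10 * (h₀ * R) := by ring
    calc 2 * e * (h₀ + 1) = 2 * e * h₀ + 2 * e := by ring
      _ ≤ 10 * t + a := by omega
  have f4 : 100 * (P * ((K₀ + 1) * (5 * a - 6))) ≤ a * a + 500 * (P * a) := by
    have h1 : (K₀ + 1) * (5 * a - 6) ≤ 5 * (K₀ * a) + 5 * a := by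
      calc (K₀ + 1) * (5 * a - 6) ≤ (K₀ + 1) * (5 * a) := Nat.mul_le_mul_left _ (by omega)
        _ = 5 * (K₀ * a) + 5 * a := by ring
    have h2 : 500 * (P * K₀) ≤ a := by
      refine le_trans ?_ hK4
      calc 500 * (P * K₀) ≤ D * (500 * (P * K₀)) := Nat.le_mul_of_pos_left _ (by omega)
        _ = 500 * (D * P) * K₀ := by ring
    calc 100 * (P * ((K₀ + 1) * (5 * a - 6))) ≤ 100 * (P * (5 * (K₀ * a) + 5 * a)) :=
          Nat.mul_le_mul_left _ (Nat.mul_le_mul_left _ h1)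
      _ = (500 * (P * K₀)) * a + 500 * (P * a) := by ring
      _ ≤ a * a + 500 * (P * a) := Nat.add_le_add_right (Nat.mul_le_mul_right _ h2) _
  have hPG : 14000 * P ≤ G := by
    have h1 := H.PQ
    have h2 := H.G1
    omega
  have f5 : 14000 * (P * t) ≤ a * a := by
    calc 14000 * (P * t) = (14000 * P) * t := by ring
      _ ≤ G * t := Nat.mul_le_mul_right _ hPG
      _ ≤ a * a := H.htG
  have f6 : 14000 * (P * a) ≤ a * a := by
    calc 14000 * (P * a) = (14000 * P) * a := by ring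
      _ ≤ a * a := Nat.mul_le_mul_right _ (hPG.trans H.hGa)
  have f7 : P * (n * B + 2 * e * (h₀ + 1) + l2 + (K₀ + 1) * (5 * a - 6) + 9 * a) ≤ P * l1 := by
    refine le_trans ?_ H.hl1
    have g3 : P * (2 * e * (h₀ + 1)) ≤ P * (10 * t + a) := Nat.mul_le_mul_left _ f3
    have g4 : P * l2 ≤ P * t := Nat.mul_le_mul_left _ H.hl2
    have g5 : P * (n * B + 2 * e * (h₀ + 1) + l2 + (K₀ + 1) * (5 * a - 6) + 9 * a)
        = P * (n * B) + P * (2 * e * (h₀ + 1)) + P * l2 + P * ((K₀ + 1) * (5 * a - 6))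
          + 9 * (P * a) := by ring
    have g6 : P * (10 * t + a) = 10 * (P * t) + P * a := by ring
    rw [g5]
    rw [g6] at g3
    omega
  exact Nat.le_of_mul_le_mul_left f7 (by omega)

/-- The parameters. -/
lemma Hyp.params (H : Hyp a b t l1 l2 D P Q G) :
    ∃ e n m X h R K : ℕ, 2 * e ≤ a ∧ 1 ≤ m ∧ 1 ≤ X ∧ 1 ≤ h ∧ a ≤ n ∧ n + 2 * h + 9 * K = b ∧
      e * b ≤ K * (a - 12) ∧ (m * (X + 1) + X) * n ≤ t ∧ t / n + m * (X + 1) + 1 ≤ t / a ∧
      l2 ≤ h * R ∧ t / a + n / m + 2 + R ≤ e ∧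
      n * (n / m) + 2 * e * h + l2 + K * (5 * a - 6) + 9 * a ≤ l1 ∧
      (D + 7) * a ≤ D * n ∧ t ≤ X * a * (Q * Q) := by
  have hQ0 := H.Q0
  have hP := H.hP
  obtain ⟨e, he1, heQ, he3⟩ := H.e
  obtain ⟨K₀, hK1, hK4⟩ := H.K he1
  obtain ⟨R, hR⟩ : ∃ R, R = e / 4 := ⟨_, rfl⟩
  have hR1 : 4 * R ≤ e := by omega
  have hR2 : e ≤ 5 * R := by omega
  have hR0 : 0 < R := by omega
  obtain ⟨h₀, hh1, hh2, hh4⟩ := H.h he3 hR2 hR0
  obtain ⟨n, hn, hn3, hn4, hnb⟩ := H.n hK4 hh4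
  obtain ⟨m, hm⟩ : ∃ m, m = 8 * Q * P := ⟨_, rfl⟩
  have hm1 : 1 ≤ m := by
    rw [hm]
    exact Nat.mul_pos (by omega) (by omega)
  have ha1 := H.a1
  obtain ⟨X, hX1, hX2, hX3⟩ := H.X hm hnb (by omega)
  have hea : 2 * e ≤ a := by
    refine le_trans ?_ he1
    exact Nat.mul_le_mul_right _ (by omega)
  exact ⟨e, n, m, X, h₀ + 1, R, K₀ + 1, hea, hm1, hX1, by omega, hn4, by omega, hK1,
    H.c8 hX1 hm1 hX2, H.c9 hm hn3 hX2, hh1, H.c11 hm heQ he3 hnb hR1,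
    H.c12 hm he1 hnb hR2 hh2 hK4, hn3, hX3⟩

/-- The growth. -/
lemma growth {a b t D P Q G n X : ℕ} (H : Hyp a b t l1 l2 D P Q G)
    (hG2 : (Q * Q) ^ (2 * D + 1) ≤ G) (hn : (D + 7) * a ≤ D * n) (hX : t ≤ X * a * (Q * Q)) :
    (a + b).choose a * (a + t - 1).choose t * (a * b + 1) ^ 3 ≤ X ^ n := by
  have hQ0 := H.Q0
  have hP := H.hP
  have hD := H.hD
  have ha1 := H.a1
  have hapos : 0 < a := by omega
  obtain ⟨Z, hZ⟩ : ∃ Z, Z = Q * Q := ⟨_, rfl⟩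
  rw [← hZ] at hG2 hX
  have hZ0 : 0 < Z := by rw [hZ]; exact Nat.mul_pos (by omega) (by omega)
  have ha' : (0 : ℝ) < a := by exact_mod_cast hapos
  have hP' : (1 : ℝ) ≤ P := by exact_mod_cast hP
  have hZ' : (0 : ℝ) < Z := by exact_mod_cast hZ0
  -- `X` is large
  have hXZ : Z ^ (2 * D) ≤ X := by
    have h1 : Z ^ (2 * D) * (Z * a) ≤ X * (Z * a) := by
      calc Z ^ (2 * D) * (Z * a) = Z ^ (2 * D + 1) * a := by ring
        _ ≤ G * a := Nat.mul_le_mul_right _ hG2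
        _ ≤ t := H.hGt
        _ ≤ X * a * Z := hX
        _ = X * (Z * a) := by ring
    exact Nat.le_of_mul_le_mul_right h1 (Nat.mul_pos hZ0 hapos)
  have hX1 : 1 ≤ X := le_trans (Nat.one_le_pow _ _ hZ0) hXZ
  have hXr : (1 : ℝ) ≤ X := by exact_mod_cast hX1
  have hXZ' : (Z : ℝ) ^ (2 * D) ≤ X := by exact_mod_cast hXZ
  obtain ⟨Y, hY⟩ : ∃ Y : ℝ, Y = (t : ℝ) / a := ⟨_, rfl⟩
  have hYt : Y * a = t := by rw [hY]; field_simp
  have hY1 : 1 ≤ Y := by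
    rw [hY, le_div_iff₀ ha', one_mul]
    have h1 : a ≤ t := by
      refine le_trans ?_ H.hGt
      exact Nat.le_mul_of_pos_left _ (by have := H.G1; omega)
    exact_mod_cast h1
  have hYX : Y ≤ X * Z := by
    rw [hY, div_le_iff₀ ha']
    have h1 : ((t : ℕ) : ℝ) ≤ ((X * a * Z : ℕ) : ℝ) := by exact_mod_cast hX
    push_cast at h1
    linarith
  -- the three factors
  have f1 : ((a + b).choose a : ℝ) ≤ (6 * P) ^ a := by
    refine (choose_le a b hapos).trans (pow_le_pow_left₀ (by positivity) ?_ a)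
    have h1 : ((a : ℝ) + b) / a ≤ 2 * P := by
      rw [div_le_iff₀ ha']
      have h2 : (b : ℝ) ≤ P * a := by exact_mod_cast H.hbP
      nlinarith
    linarith
  have f2 : ((a + t - 1).choose t : ℝ) ≤ (6 * Y) ^ a := by
    refine (choose_le' a t hapos).trans (pow_le_pow_left₀ (by positivity) ?_ a)
    have h1 : ((a : ℝ) + t) / a ≤ 2 * Y := by
      rw [div_le_iff₀ ha', ← hYt]
      nlinarith
    linarith
  have f3 : (((a * b + 1) ^ 3 : ℕ) : ℝ) ≤ (2 * P) ^ a := by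
    have h1 : a * b + 1 ≤ 2 * (P * (a * a)) := by
      have h2 : a * b ≤ a * (P * a) := Nat.mul_le_mul_left _ H.hbP
      have h3 : a * (P * a) = P * (a * a) := by ring
      have h4 : 1 ≤ P * (a * a) := Nat.mul_pos (by omega) (Nat.mul_pos hapos hapos)
      omega
    have h5 : (a * b + 1) ^ 3 ≤ (2 * P) ^ a := by
      calc (a * b + 1) ^ 3 ≤ (2 * (P * (a * a))) ^ 3 := Nat.pow_le_pow_left h1 3
        _ = (8 * a ^ 6) * P ^ 3 := by ring
        _ ≤ 2 ^ a * P ^ a :=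
            Nat.mul_le_mul (poly_le a (by omega)) (Nat.pow_le_pow_right (by omega) (by omega))
        _ = (2 * P) ^ a := by rw [mul_pow]
    exact_mod_cast h5
  have f4 : (((a + b).choose a * (a + t - 1).choose t * (a * b + 1) ^ 3 : ℕ) : ℝ) ≤
      (72 * (P : ℝ) ^ 2 * Y) ^ a := by
    have h1 : (72 * (P : ℝ) ^ 2 * Y) ^ a = (6 * P) ^ a * (6 * Y) ^ a * (2 * P) ^ a := by
      rw [← mul_pow, ← mul_pow]
      congr 1
      ring
    rw [h1]
    push_cast at f3 ⊢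
    exact mul_le_mul (mul_le_mul f1 f2 (by positivity) (by positivity)) f3 (by positivity)
      (by positivity)
  -- the power `D`
  have hPZ : 72 * (P : ℝ) ^ 2 ≤ Z := by
    have h1 : 72 * P ^ 2 ≤ Z := by
      have h2 : 1000 * (P ^ 2 * D) = Q := H.DPP
      have h3 : P ^ 2 ≤ P ^ 2 * D := Nat.le_mul_of_pos_right _ (by omega)
      have h4 : Q ≤ Q * Q := Nat.le_mul_of_pos_left _ (by omega)
      omega
    exact_mod_cast h1
  have g1 : 72 * (P : ℝ) ^ 2 * Y ≤ X * (Z * Z) := by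
    calc 72 * (P : ℝ) ^ 2 * Y ≤ Z * (X * Z) := mul_le_mul hPZ hYX (by linarith) hZ'.le
      _ = X * (Z * Z) := by ring
  have g2 : (72 * (P : ℝ) ^ 2 * Y) ^ D ≤ (X : ℝ) ^ (D + 7) := by
    calc (72 * (P : ℝ) ^ 2 * Y) ^ D ≤ (X * (Z * Z)) ^ D :=
          pow_le_pow_left₀ (by positivity) g1 D
      _ = (X : ℝ) ^ D * (Z : ℝ) ^ (2 * D) := by rw [mul_pow]; ring
      _ ≤ (X : ℝ) ^ D * (X : ℝ) ^ 7 := by
          refine mul_le_mul_of_nonneg_left (hXZ'.trans ?_) (by positivity)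
          exact le_self_pow₀ hXr (by norm_num)
      _ = (X : ℝ) ^ (D + 7) := by rw [pow_add]
  have g3 : ((72 * (P : ℝ) ^ 2 * Y) ^ a) ^ D ≤ ((X : ℝ) ^ n) ^ D := by
    calc ((72 * (P : ℝ) ^ 2 * Y) ^ a) ^ D = ((72 * (P : ℝ) ^ 2 * Y) ^ D) ^ a := by
          rw [← pow_mul, ← pow_mul, mul_comm a D]
      _ ≤ ((X : ℝ) ^ (D + 7)) ^ a := pow_le_pow_left₀ (by positivity) g2 a
      _ = (X : ℝ) ^ ((D + 7) * a) := by rw [← pow_mul]
      _ ≤ (X : ℝ) ^ (D * n) := pow_le_pow_right₀ hXr hn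
      _ = ((X : ℝ) ^ n) ^ D := by rw [← pow_mul, mul_comm]
  have g4 : (72 * (P : ℝ) ^ 2 * Y) ^ a ≤ (X : ℝ) ^ n :=
    le_of_pow_le_pow_left₀ (by omega) (by positivity) g3
  have g5 := f4.trans g4
  exact_mod_cast g5

end

/-- **(L7u)** from (L6). -/
theorem twoLongU (h : CoreN) : TwoLongU := by
  obtain ⟨a₀, h⟩ := h
  intro δ hδ
  obtain ⟨D, hD⟩ : ∃ D : ℕ, D = ⌈8 / δ⌉₊ + 14 := ⟨_, rfl⟩
  have hDδ : 8 ≤ D * δ := by
    have h1 : 8 / δ ≤ (⌈8 / δ⌉₊ : ℝ) := Nat.le_ceil _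
    have h2 : ((⌈8 / δ⌉₊ : ℕ) : ℝ) ≤ D := by exact_mod_cast (by omega : ⌈8 / δ⌉₊ ≤ D)
    rw [div_le_iff₀ hδ] at h1
    nlinarith
  have hD1 : (1 : ℝ) ≤ D := by exact_mod_cast (by omega : 1 ≤ D)
  obtain ⟨B, hB⟩ : ∃ B : ℝ, B = (16000000 * (D : ℝ) ^ 2) ^ (2 * D + 1) := ⟨_, rfl⟩
  have hB1 : 1 ≤ B := by
    rw [hB]
    exact one_le_pow₀ (by nlinarith)
  refine ⟨B + 2 * a₀, 4 * (2 * D + 1), by have := Nat.cast_nonneg (α := ℝ) a₀; linarith, ?_⟩
  intro a b k lam Λ hlam hsum hΛ h1 h2 h3 h4 h5 h6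
  have hΛ0 : 0 < Λ := by linarith
  obtain ⟨P, hP⟩ : ∃ P : ℕ, P = ⌈Λ⌉₊ := ⟨_, rfl⟩
  have hP1 : Λ ≤ P := by rw [hP]; exact Nat.le_ceil _
  have hP2 : (P : ℝ) ≤ 2 * Λ := by
    have := Nat.ceil_lt_add_one hΛ0.le
    rw [hP]
    linarith
  have hP3 : 1 ≤ P := by
    have : (1 : ℝ) ≤ P := hΛ.trans hP1
    exact_mod_cast this
  obtain ⟨Q, hQ⟩ : ∃ Q, Q = 1000 * D * P ^ 2 := ⟨_, rfl⟩
  obtain ⟨G, hG⟩ : ∃ G, G = (Q * Q) ^ (2 * D + 1) := ⟨_, rfl⟩
  have hGr : (G : ℝ) ≤ B * Λ ^ (4 * (2 * D + 1)) := by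
    have e1 : ((Q * Q : ℕ) : ℝ) ≤ 16000000 * (D : ℝ) ^ 2 * Λ ^ 4 := by
      rw [hQ]
      push_cast
      have e2 : (P : ℝ) ^ 4 ≤ (2 * Λ) ^ 4 := pow_le_pow_left₀ (by positivity) hP2 4
      have e3 : (1000 * (D : ℝ) * (P : ℝ) ^ 2) * (1000 * (D : ℝ) * (P : ℝ) ^ 2) =
          1000000 * (D : ℝ) ^ 2 * (P : ℝ) ^ 4 := by ring
      rw [e3]
      calc 1000000 * (D : ℝ) ^ 2 * (P : ℝ) ^ 4 ≤ 1000000 * (D : ℝ) ^ 2 * (2 * Λ) ^ 4 :=
            mul_le_mul_of_nonneg_left e2 (by positivity)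
        _ = 16000000 * (D : ℝ) ^ 2 * Λ ^ 4 := by ring
    rw [hG, hB, pow_mul Λ, ← mul_pow]
    push_cast at e1 ⊢
    exact pow_le_pow_left₀ (by positivity) e1 _
  have hΛc : 1 ≤ Λ ^ (4 * (2 * D + 1)) := one_le_pow₀ hΛ
  have ha₀ : (0 : ℝ) ≤ a₀ := Nat.cast_nonneg _
  obtain ⟨M, hM⟩ : ∃ M : ℝ, M = Λ ^ (4 * (2 * D + 1)) := ⟨_, rfl⟩
  rw [← hM] at h1 h5 h6 hGr hΛc
  have hGM : (G : ℝ) ≤ (B + 2 * a₀) * M := by nlinarith
  have ha : 2 * a₀ ≤ a := by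
    have : 2 * (a₀ : ℝ) ≤ a := by nlinarith
    exact_mod_cast this
  have H : Hyp a b (dn2 lam) (lam 1) (lam 2) D P Q G := by
    refine ⟨by omega, hP3, hQ, ?_, ?_, ?_, ?_, ?_, ?_, ?_, ?_⟩
    · rw [hG]
      exact Nat.le_self_pow (by omega) _
    · exact_mod_cast hGM.trans h1
    · have : (G : ℝ) * a ≤ dn2 lam :=
        (mul_le_mul_of_nonneg_right hGM (Nat.cast_nonneg a)).trans h5
      exact_mod_cast this
    · have : (G : ℝ) * dn2 lam ≤ (a : ℝ) * a := by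
        rw [← pow_two]
        exact (mul_le_mul_of_nonneg_right hGM (Nat.cast_nonneg _)).trans h6
      exact_mod_cast this
    · have : (b : ℝ) ≤ P * a := h3.trans (mul_le_mul_of_nonneg_right hP1 (Nat.cast_nonneg _))
      exact_mod_cast this
    · have : ((D : ℝ) + 8) * a ≤ D * b := by
        have e1 : (D : ℝ) * ((1 + δ) * a) ≤ D * b :=
          mul_le_mul_of_nonneg_left h2 (by linarith)
        have e2 : 8 * (a : ℝ) ≤ (D * δ) * a :=
          mul_le_mul_of_nonneg_right hDδ (Nat.cast_nonneg _)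
        nlinarith
      exact_mod_cast this
    · have : (a : ℝ) * a ≤ P * lam 1 := by
        rw [← pow_two]
        exact h4.trans (mul_le_mul_of_nonneg_right hP1 (Nat.cast_nonneg _))
      exact_mod_cast this
    · exact Finset.single_le_sum (f := fun i : Fin (k + 1) => lam i.succ.succ)
        (fun _ _ => Nat.zero_le _) (Finset.mem_univ 0)
  obtain ⟨e, n, m, X, h', R, K, c1, c2, c3, c4, c5, c6, c7, c8, c9, c10, c11, c12, c13, c14⟩ :=
    H.params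
  have ha1 := H.a1
  have hQ0 := H.Q0
  exact h a b k e n m X h' R K lam (hlam (Fin.zero_le _)) hsum (by omega) (by omega) c2 c3 c4 c5 c6 c7
    c8 c9 c10 c11 c12 (growth H (le_of_eq hG.symm) c13 c14)

end Vale.Agent.P181.H382.H146
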