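import Vale.Agent.P181.H382.H382.UDefs
import Vale.Agent.P181.H382.H146.U

set_option autoImplicit false

/-!
# P181, LS without `δ`: the numbers
-/

namespace Vale.Agent.P181.H382.H146.V

open Vale.Agent.P181.H280 (plethMult)
open Vale.Agent.P181.TL (KK dn2)
open Vale.Agent.P181.H382.H112 (CoreS)
open Vale.Agent.P181.H382.U (TwoLongSU)

/-- The hypotheses on the parameters. -/
structure Hyp (a b t l1 l2 D P Q G W : ℕ) : Prop where
  hD : 14 ≤ D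
  hP : 1 ≤ P
  hQ : Q = 1000 * D
  hG : G = (Q * Q) * (P * P)
  hW : W = 213840 * (Q * D)
  hGa : G ≤ a
  htG : G * t ≤ a * a
  hbP : b ≤ P * a
  hab : D * a + 8 * b ≤ D * b
  hl1 : a * a ≤ P * l1
  hl1' : 2 * l1 ≤ a * b
  hl2 : l2 ≤ t
  hr : W ^ (D + 1) * b ^ 3 ≤ l1 * t

section
variable {a b t l1 l2 D P Q G W : ℕ}

lemma Hyp.Q0 (H : Hyp a b t l1 l2 D P Q G W) : 14000 ≤ Q := by
  have := H.hD
  rw [H.hQ]
  omega

lemma Hyp.ab (H : Hyp a b t l1 l2 D P Q G W) : a ≤ b := by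
  have h1 : D * a ≤ D * b := by have := H.hab; omega
  exact Nat.le_of_mul_le_mul_left h1 (by have := H.hD; omega)

lemma Hyp.QPG (H : Hyp a b t l1 l2 D P Q G W) : Q * P ≤ G := by
  have h0 := H.Q0
  have h1 := H.hP
  have h2 : 1 ≤ Q * P := Nat.mul_pos (by omega) (by omega)
  rw [H.hG]
  calc Q * P ≤ (Q * P) * (Q * P) := Nat.le_mul_of_pos_left _ h2
    _ = (Q * Q) * (P * P) := by ring

lemma Hyp.QQG (H : Hyp a b t l1 l2 D P Q G W) : Q * Q ≤ G := by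
  have h1 := H.hP
  rw [H.hG]
  exact Nat.le_mul_of_pos_right _ (Nat.mul_pos (by omega) (by omega))

lemma Hyp.a1 (H : Hyp a b t l1 l2 D P Q G W) : 14000 * Q ≤ a :=
  (Nat.mul_le_mul_right Q H.Q0).trans (H.QQG.trans H.hGa)

lemma Hyp.Qa (H : Hyp a b t l1 l2 D P Q G W) : Q * a ≤ l1 := by
  have h1 : P * (Q * a) ≤ P * l1 := by
    calc P * (Q * a) = (Q * P) * a := by ring
      _ ≤ a * a := Nat.mul_le_mul_right _ (H.QPG.trans H.hGa)
      _ ≤ P * l1 := H.hl1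
  exact Nat.le_of_mul_le_mul_left h1 (by have := H.hP; omega)

lemma Hyp.Qt (H : Hyp a b t l1 l2 D P Q G W) : Q * t ≤ l1 := by
  have h1 : P * (Q * t) ≤ P * l1 := by
    calc P * (Q * t) = (Q * P) * t := by ring
      _ ≤ G * t := Nat.mul_le_mul_right _ H.QPG
      _ ≤ a * a := H.htG
      _ ≤ P * l1 := H.hl1
  exact Nat.le_of_mul_le_mul_left h1 (by have := H.hP; omega)

lemma Hyp.l0 (H : Hyp a b t l1 l2 D P Q G W) : 0 < l1 := by
  have h1 := H.Qa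
  have h2 := H.a1
  have h3 := H.Q0
  have h4 : a ≤ Q * a := Nat.le_mul_of_pos_left _ (by omega)
  omega

/-- The main estimate for `t`. -/
lemma Hyp.key (H : Hyp a b t l1 l2 D P Q G W) : Q * Q * (b * t) ≤ a * l1 := by
  have hP := H.hP
  have h1 : (P * P) * (Q * Q * (b * t)) ≤ (P * P) * (a * l1) := by
    calc (P * P) * (Q * Q * (b * t)) = b * (G * t) := by rw [H.hG]; ring
      _ ≤ (P * a) * (P * l1) := Nat.mul_le_mul H.hbP (H.htG.trans H.hl1)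
      _ = (P * P) * (a * l1) := by ring
  exact Nat.le_of_mul_le_mul_left h1 (Nat.mul_pos (by omega) (by omega))

/-- The number `e`. -/
lemma Hyp.e (H : Hyp a b t l1 l2 D P Q G W) :
    ∃ e, Q * b * e ≤ l1 ∧ Q ≤ e ∧ l1 < Q * b * (e + 1) ∧ l1 ≤ 2 * (Q * b * e) ∧
      2 * (Q * e) ≤ a := by
  have hQ0 := H.Q0
  have hP := H.hP
  have ha1 := H.a1
  have hab := H.ab
  have hpos : 0 < Q * b := Nat.mul_pos (by omega) (by omega)
  have h1 : Q * b * (l1 / (Q * b)) ≤ l1 := Nat.mul_div_le l1 _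
  have h2 : l1 < Q * b * (l1 / (Q * b) + 1) := Nat.lt_mul_div_succ l1 hpos
  have h3 : Q ≤ l1 / (Q * b) := by
    rw [Nat.le_div_iff_mul_le hpos]
    have h4 : (P * P) * (Q * (Q * b)) ≤ (P * P) * l1 := by
      calc (P * P) * (Q * (Q * b)) = G * b := by rw [H.hG]; ring
        _ ≤ a * (P * a) := Nat.mul_le_mul H.hGa H.hbP
        _ = P * (a * a) := by ring
        _ ≤ P * (P * l1) := Nat.mul_le_mul_left _ H.hl1
        _ = (P * P) * l1 := by ring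
    exact Nat.le_of_mul_le_mul_left h4 (Nat.mul_pos (by omega) (by omega))
  refine ⟨l1 / (Q * b), h1, h3, h2, ?_, ?_⟩
  · have h4 : Q * b * (l1 / (Q * b) + 1) = Q * b * (l1 / (Q * b)) + Q * b * 1 := by ring
    have h5 : Q * b * 1 ≤ Q * b * (l1 / (Q * b)) := Nat.mul_le_mul_left _ (by omega)
    omega
  · have h4 : b * (2 * (Q * (l1 / (Q * b)))) ≤ b * a := by
      calc b * (2 * (Q * (l1 / (Q * b)))) = 2 * (Q * b * (l1 / (Q * b))) := by ring
        _ ≤ 2 * l1 := Nat.mul_le_mul_left _ h1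
        _ ≤ a * b := H.hl1'
        _ = b * a := by ring
    exact Nat.le_of_mul_le_mul_left h4 (by omega)

/-- The number `K`. -/
lemma Hyp.K (H : Hyp a b t l1 l2 D P Q G W) {e : ℕ} (he1 : Q * b * e ≤ l1) :
    ∃ K₀, e * b ≤ (K₀ + 1) * (a - 12) ∧ Q * (K₀ * (a - 12)) ≤ l1 ∧ Q * K₀ ≤ b := by
  have hQ0 := H.Q0
  have ha1 := H.a1
  have hapos : 0 < a := by omega
  have ha12 : 0 < a - 12 := by omega
  have hK1 : e * b ≤ (e * b / (a - 12) + 1) * (a - 12) := by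
    rw [mul_comm (_ + 1)]
    exact (Nat.lt_mul_div_succ (e * b) ha12).le
  have hK2 : e * b / (a - 12) * (a - 12) ≤ e * b := Nat.div_mul_le_self _ _
  refine ⟨e * b / (a - 12), hK1, ?_⟩
  generalize e * b / (a - 12) = K₀ at hK2 ⊢
  have h1 : Q * (K₀ * (a - 12)) ≤ l1 := by
    calc Q * (K₀ * (a - 12)) ≤ Q * (e * b) := Nat.mul_le_mul_left _ hK2
      _ = Q * b * e := by ring
      _ ≤ l1 := he1
  refine ⟨h1, ?_⟩
  have h2 : a ≤ 2 * (a - 12) := by omega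
  have h3 : (Q * K₀) * a ≤ b * a := by
    calc (Q * K₀) * a ≤ (Q * K₀) * (2 * (a - 12)) := Nat.mul_le_mul_left _ h2
      _ = 2 * (Q * (K₀ * (a - 12))) := by ring
      _ ≤ 2 * l1 := Nat.mul_le_mul_left _ h1
      _ ≤ a * b := H.hl1'
      _ = b * a := by ring
  exact Nat.le_of_mul_le_mul_right h3 hapos

/-- The number `h`. -/
lemma Hyp.h (H : Hyp a b t l1 l2 D P Q G W) {e R : ℕ} (he3 : l1 ≤ 2 * (Q * b * e))
    (hR2 : e ≤ 5 * R) (hR0 : 0 < R) :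
    ∃ h₀, l2 ≤ (h₀ + 1) * R ∧ h₀ * R ≤ t ∧ 100 * (D * h₀) ≤ a := by
  have hh1 : l2 ≤ (l2 / R + 1) * R := by
    rw [mul_comm]; exact (Nat.lt_mul_div_succ l2 hR0).le
  have hh2 : l2 / R * R ≤ l2 := Nat.div_mul_le_self _ _
  refine ⟨l2 / R, hh1, hh2.trans H.hl2, ?_⟩
  generalize l2 / R = h₀ at hh2 ⊢
  have h2 : l1 ≤ 10 * (Q * b * R) := by
    calc l1 ≤ 2 * (Q * b * e) := he3
      _ ≤ 2 * (Q * b * (5 * R)) := Nat.mul_le_mul_left _ (Nat.mul_le_mul_left _ hR2)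
      _ = 10 * (Q * b * R) := by ring
  have h3 : (100 * (D * h₀)) * l1 ≤ a * l1 := by
    calc (100 * (D * h₀)) * l1 ≤ (100 * (D * h₀)) * (10 * (Q * b * R)) :=
          Nat.mul_le_mul_left _ h2
      _ = (1000 * D) * Q * (b * (h₀ * R)) := by ring
      _ = Q * Q * (b * (h₀ * R)) := by rw [← H.hQ]
      _ ≤ Q * Q * (b * t) :=
          Nat.mul_le_mul_left _ (Nat.mul_le_mul_left _ (hh2.trans H.hl2))
      _ ≤ a * l1 := H.key
  exact Nat.le_of_mul_le_mul_right h3 H.l0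

/-- The number `n`. -/
lemma Hyp.n (H : Hyp a b t l1 l2 D P Q G W) {K₀ h₀ : ℕ} (hK : Q * K₀ ≤ b)
    (hh4 : 100 * (D * h₀) ≤ a) :
    ∃ n, n + (9 * (K₀ + 1) + 2 * (h₀ + 1)) = b ∧ D * a + 7 * b ≤ D * n ∧ a ≤ n ∧ n ≤ b := by
  have hQ0 := H.Q0
  have ha1 := H.a1
  have hD := H.hD
  have hab := H.hab
  have hab' := H.ab
  have hQ := H.hQ
  have h1 : 1000 * (D * K₀) ≤ b := by
    calc 1000 * (D * K₀) = (1000 * D) * K₀ := by ring
      _ = Q * K₀ := by rw [← H.hQ]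
      _ ≤ b := hK
  have hn1 : D * (9 * (K₀ + 1) + 2 * (h₀ + 1)) ≤ b := by
    have h4 : D * (9 * (K₀ + 1) + 2 * (h₀ + 1)) = 9 * (D * K₀) + 2 * (D * h₀) + 11 * D := by ring
    rw [h4]
    omega
  have hn2 : 9 * (K₀ + 1) + 2 * (h₀ + 1) ≤ b :=
    le_trans (Nat.le_mul_of_pos_left _ (by omega)) hn1
  obtain ⟨n, hn⟩ : ∃ n, n + (9 * (K₀ + 1) + 2 * (h₀ + 1)) = b := ⟨b - _, Nat.sub_add_cancel hn2⟩
  have e2 : D * n + D * (9 * (K₀ + 1) + 2 * (h₀ + 1)) = D * b := by rw [← hn]; ring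
  have hn3 : D * a + 7 * b ≤ D * n := by omega
  have hn4 : a ≤ n := by
    have h1 : D * a ≤ D * n := by omega
    exact Nat.le_of_mul_le_mul_left h1 (by omega)
  exact ⟨n, hn, hn3, hn4, by omega⟩

/-- The number `m`. -/
lemma Hyp.m (H : Hyp a b t l1 l2 D P Q G W) :
    ∃ m, 1 ≤ m ∧ 8 * Q * (b * b) ≤ m * l1 ∧ (m + 1) * l1 ≤ 10 * Q * (b * b) ∧
      m * l1 ≤ 9 * Q * (b * b) := by
  have hQ0 := H.Q0
  have hl0 := H.l0
  have hab := H.ab
  have hlb : l1 ≤ b * b := by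
    have h1 : a * b ≤ b * b := Nat.mul_le_mul_right _ hab
    have := H.hl1'
    omega
  have hlQ : l1 ≤ Q * (b * b) := hlb.trans (Nat.le_mul_of_pos_left _ (by omega))
  have h1 : 8 * Q * (b * b) < l1 * (8 * Q * (b * b) / l1 + 1) := Nat.lt_mul_div_succ _ hl0
  have h2 : 8 * Q * (b * b) / l1 * l1 ≤ 8 * Q * (b * b) := Nat.div_mul_le_self _ _
  refine ⟨8 * Q * (b * b) / l1 + 1, Nat.le_add_left _ _, ?_, ?_, ?_⟩
  · rw [mul_comm (_ + 1)]
    exact h1.le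
  · generalize 8 * Q * (b * b) / l1 = m at h2 ⊢
    have e1 : (m + 1 + 1) * l1 = m * l1 + 2 * l1 := by ring
    have e2 : 8 * Q * (b * b) = 8 * (Q * (b * b)) := by ring
    have e3 : 10 * Q * (b * b) = 10 * (Q * (b * b)) := by ring
    omega
  · generalize 8 * Q * (b * b) / l1 = m at h2 ⊢
    have e1 : (m + 1) * l1 = m * l1 + l1 := by ring
    have e2 : 8 * Q * (b * b) = 8 * (Q * (b * b)) := by ring
    have e3 : 9 * Q * (b * b) = 9 * (Q * (b * b)) := by ring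
    omega

lemma Hyp.W1 (H : Hyp a b t l1 l2 D P Q G W) : W * b ^ 3 ≤ l1 * t := by
  have hD := H.hD
  have hQ0 := H.Q0
  have hW : 1 ≤ W := by
    rw [H.hW]
    exact Nat.mul_pos (by norm_num) (Nat.mul_pos (by omega) (by omega))
  refine le_trans (Nat.mul_le_mul_right _ ?_) H.hr
  exact Nat.le_self_pow (by omega) _

lemma Hyp.W2 (H : Hyp a b t l1 l2 D P Q G W) : 213840 * (Q * D) * b ^ 3 ≤ l1 * t := by
  have := H.W1
  rwa [H.hW] at this

/-- The number `X`. -/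
lemma Hyp.X (H : Hyp a b t l1 l2 D P Q G W) {n m : ℕ} (hm0 : 1 ≤ m)
    (hm : m * l1 ≤ 9 * Q * (b * b)) (hnb : n ≤ b)
    (hn0 : 0 < n) : ∃ X, 1 ≤ X ∧ X * (n * m * D) ≤ t ∧ l1 * t ≤ 18 * (Q * D) * b ^ 3 * X := by
  have hQ0 := H.Q0
  have hD := H.hD
  have hl0 := H.l0
  have hW := H.W2
  have hnm : l1 * (n * m * D) ≤ 9 * (Q * D) * b ^ 3 := by
    calc l1 * (n * m * D) = n * D * (m * l1) := by ring
      _ ≤ b * D * (9 * Q * (b * b)) := Nat.mul_le_mul (Nat.mul_le_mul_right _ hnb) hm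
      _ = 9 * (Q * D) * b ^ 3 := by ring
  have hnmD : n * m * D ≤ t := by
    have h1 : l1 * (n * m * D) ≤ l1 * t := by
      refine hnm.trans (le_trans ?_ hW)
      exact Nat.mul_le_mul_right _ (Nat.mul_le_mul_right _ (by norm_num))
    exact Nat.le_of_mul_le_mul_left h1 hl0
  have hpos : 0 < n * m * D := Nat.mul_pos (Nat.mul_pos hn0 (by omega)) (by omega)
  have hX1 : 1 ≤ t / (n * m * D) := (Nat.le_div_iff_mul_le hpos).2 (by omega)
  have hX2 : t / (n * m * D) * (n * m * D) ≤ t := Nat.div_mul_le_self _ _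
  have h1 : t < (n * m * D) * (t / (n * m * D) + 1) := Nat.lt_mul_div_succ t hpos
  refine ⟨t / (n * m * D), hX1, hX2, ?_⟩
  generalize t / (n * m * D) = X at hX1 h1 ⊢
  have h2 : (n * m * D) * (X + 1) ≤ (n * m * D) * (2 * X) := Nat.mul_le_mul_left _ (by omega)
  calc l1 * t ≤ l1 * ((n * m * D) * (2 * X)) := Nat.mul_le_mul_left _ (by omega)
    _ = 2 * X * (l1 * (n * m * D)) := by ring
    _ ≤ 2 * X * (9 * (Q * D) * b ^ 3) := Nat.mul_le_mul_left _ hnm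
    _ = 18 * (Q * D) * b ^ 3 * X := by ring

lemma Hyp.c8 (H : Hyp a b t l1 l2 D P Q G W) {n m X : ℕ} (hX1 : 1 ≤ X) (hm1 : 1 ≤ m)
    (hX2 : X * (n * m * D) ≤ t) : (m * (X + 1) + X) * n ≤ t := by
  have hD := H.hD
  have h1 : (m * (X + 1) + X) * n ≤ 3 * (X * (n * m)) := by
    have h2 : m ≤ m * X := Nat.le_mul_of_pos_right _ (by omega)
    have h3 : X ≤ m * X := Nat.le_mul_of_pos_left _ (by omega)
    calc (m * (X + 1) + X) * n = (m * X + m + X) * n := by ring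
      _ ≤ (m * X + m * X + m * X) * n := Nat.mul_le_mul_right _ (by omega)
      _ = 3 * (X * (n * m)) := by ring
  refine h1.trans (le_trans ?_ hX2)
  calc 3 * (X * (n * m)) ≤ D * (X * (n * m)) := Nat.mul_le_mul_right _ (by omega)
    _ = X * (n * m * D) := by ring

lemma Hyp.c9 (H : Hyp a b t l1 l2 D P Q G W) {n m X : ℕ}
    (hm : (m + 1) * l1 ≤ 10 * Q * (b * b)) (hn3 : (D + 7) * a ≤ D * n)
    (hX2 : X * (n * m * D) ≤ t) : t / n + m * (X + 1) + 1 ≤ t / a := by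
  have hQ0 := H.Q0
  have hD := H.hD
  have hP := H.hP
  have ha1 := H.a1
  have hab := H.ab
  have hl0 := H.l0
  have hapos : 0 < a := by omega
  rw [Nat.le_div_iff_mul_le hapos]
  have hA1 : t / n * n ≤ t := Nat.div_mul_le_self _ _
  generalize t / n = A at hA1 ⊢
  have e1 : (D + 7) * a * A ≤ D * t := by
    calc (D + 7) * a * A ≤ D * n * A := Nat.mul_le_mul_right _ hn3
      _ = D * (A * n) := by ring
      _ ≤ D * t := Nat.mul_le_mul_left _ hA1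
  have e2 : (D + 7) * a * (m * X) ≤ t := by
    calc (D + 7) * a * (m * X) ≤ D * n * (m * X) := Nat.mul_le_mul_right _ hn3
      _ = X * (n * m * D) := by ring
      _ ≤ t := hX2
  have e3 : (D + 7) * a * (m + 1) ≤ t := by
    have h1 : l1 * ((D + 7) * a * (m + 1)) ≤ l1 * t := by
      calc l1 * ((D + 7) * a * (m + 1)) = (D + 7) * a * ((m + 1) * l1) := by ring
        _ ≤ (2 * D) * b * (10 * Q * (b * b)) :=
            Nat.mul_le_mul (Nat.mul_le_mul (by omega) hab) hm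
        _ = 20 * (Q * D) * b ^ 3 := by ring
        _ ≤ 213840 * (Q * D) * b ^ 3 :=
            Nat.mul_le_mul_right _ (Nat.mul_le_mul_right _ (by norm_num))
        _ ≤ l1 * t := H.W2
    exact Nat.le_of_mul_le_mul_left h1 hl0
  have h1 : (D + 7) * ((A + m * (X + 1) + 1) * a) ≤ (D + 7) * t := by
    calc (D + 7) * ((A + m * (X + 1) + 1) * a)
        = (D + 7) * a * A + (D + 7) * a * (m * X) + (D + 7) * a * (m + 1) := by ring
      _ ≤ D * t + t + t := by omega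
      _ ≤ D * t + 7 * t := by omega
      _ = (D + 7) * t := by ring
  exact Nat.le_of_mul_le_mul_left h1 (by omega)

lemma Hyp.cB (H : Hyp a b t l1 l2 D P Q G W) {n m : ℕ} (hm : 8 * Q * (b * b) ≤ m * l1)
    (hnb : n ≤ b) : 8 * (Q * b * (n / m)) ≤ l1 := by
  have hQ0 := H.Q0
  have ha1 := H.a1
  have hab := H.ab
  have hB1 : n / m * m ≤ n := Nat.div_mul_le_self _ _
  generalize n / m = B at hB1 ⊢
  have h1 : b * (8 * (Q * b * B)) ≤ b * l1 := by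
    calc b * (8 * (Q * b * B)) = (8 * Q * (b * b)) * B := by ring
      _ ≤ (m * l1) * B := Nat.mul_le_mul_right _ hm
      _ = (B * m) * l1 := by ring
      _ ≤ b * l1 := Nat.mul_le_mul_right _ (hB1.trans hnb)
  exact Nat.le_of_mul_le_mul_left h1 (by omega)

lemma Hyp.c11 (H : Hyp a b t l1 l2 D P Q G W) {e n m R : ℕ} (hB : 8 * (Q * b * (n / m)) ≤ l1)
    (heQ : Q ≤ e) (he2 : l1 < Q * b * (e + 1)) (hR1 : 4 * R ≤ e) :
    t / a + n / m + 2 + R ≤ e := by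
  have hQ0 := H.Q0
  have ha1 := H.a1
  have hab := H.ab
  have hapos : 0 < a := by omega
  have hA1 : t / a * a ≤ t := Nat.div_mul_le_self _ _
  generalize t / a = A at hA1 ⊢
  generalize n / m = B at hB ⊢
  have hA2 : 8 * (Q * b * A) ≤ l1 := by
    have h1 : a * (8 * (Q * b * A)) ≤ a * l1 := by
      calc a * (8 * (Q * b * A)) = (8 * Q) * (b * (A * a)) := by ring
        _ ≤ (Q * Q) * (b * t) :=
            Nat.mul_le_mul (Nat.mul_le_mul_right _ (by omega)) (Nat.mul_le_mul_left _ hA1)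
        _ ≤ a * l1 := H.key
    exact Nat.le_of_mul_le_mul_left h1 hapos
  have hA3 : 8 * A < e + 1 := by
    have h1 : (Q * b) * (8 * A) < (Q * b) * (e + 1) := by
      calc (Q * b) * (8 * A) = 8 * (Q * b * A) := by ring
        _ ≤ l1 := hA2
        _ < Q * b * (e + 1) := he2
    exact Nat.lt_of_mul_lt_mul_left h1
  have hB3 : 8 * B < e + 1 := by
    have h1 : (Q * b) * (8 * B) < (Q * b) * (e + 1) := by
      calc (Q * b) * (8 * B) = 8 * (Q * b * B) := by ring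
        _ ≤ l1 := hB
        _ < Q * b * (e + 1) := he2
    exact Nat.lt_of_mul_lt_mul_left h1
  omega

lemma Hyp.c12 (H : Hyp a b t l1 l2 D P Q G W) {e n m R h₀ K₀ : ℕ}
    (hB : 8 * (Q * b * (n / m)) ≤ l1) (hnb : n ≤ b)
    (he5 : 2 * (Q * e) ≤ a) (hR2 : e ≤ 5 * R) (hh2 : h₀ * R ≤ t)
    (hK4 : Q * (K₀ * (a - 12)) ≤ l1) :
    n * (n / m) + 2 * e * (h₀ + 1) + l2 + (K₀ + 1) * (5 * a - 6) + 9 * a ≤ l1 := by
  have hQ0 := H.Q0
  have ha1 := H.a1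
  have hQa := H.Qa
  have hQt := H.Qt
  generalize n / m = B at hB ⊢
  have f1 : Q * (n * B) ≤ l1 := by
    calc Q * (n * B) ≤ Q * (b * B) := Nat.mul_le_mul_left _ (Nat.mul_le_mul_right _ hnb)
      _ = Q * b * B := by ring
      _ ≤ l1 := by omega
  have hea : 2 * e ≤ a := by
    refine le_trans ?_ he5
    exact Nat.mul_le_mul_left _ (Nat.le_mul_of_pos_left _ (by omega))
  have f3 : 2 * e * (h₀ + 1) ≤ 10 * t + a := by
    have h1 : 2 * e * h₀ ≤ 10 * (h₀ * R) := by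
      calc 2 * e * h₀ ≤ 2 * (5 * R) * h₀ :=
            Nat.mul_le_mul_right _ (Nat.mul_le_mul_left _ hR2)
        _ = 10 * (h₀ * R) := by ring
    calc 2 * e * (h₀ + 1) = 2 * e * h₀ + 2 * e := by ring
      _ ≤ 10 * t + a := by omega
  have f4 : (K₀ + 1) * (5 * a - 6) ≤ 10 * (K₀ * (a - 12)) + 5 * a := by
    calc (K₀ + 1) * (5 * a - 6) ≤ (K₀ + 1) * (5 * a) := Nat.mul_le_mul_left _ (by omega)
      _ = K₀ * (5 * a) + 5 * a := by ring
      _ ≤ K₀ * (10 * (a - 12)) + 5 * a :=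
          Nat.add_le_add_right (Nat.mul_le_mul_left _ (by omega)) _
      _ = 10 * (K₀ * (a - 12)) + 5 * a := by ring
  have hl2 := H.hl2
  have f7 : Q * (n * B + 2 * e * (h₀ + 1) + l2 + (K₀ + 1) * (5 * a - 6) + 9 * a) ≤ Q * l1 := by
    calc Q * (n * B + 2 * e * (h₀ + 1) + l2 + (K₀ + 1) * (5 * a - 6) + 9 * a)
        ≤ Q * (n * B + (10 * t + a) + t + (10 * (K₀ * (a - 12)) + 5 * a) + 9 * a) :=
          Nat.mul_le_mul_left _ (by omega)
      _ = Q * (n * B) + 11 * (Q * t) + 15 * (Q * a) + 10 * (Q * (K₀ * (a - 12))) := by ring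
      _ ≤ 37 * l1 := by omega
      _ ≤ Q * l1 := Nat.mul_le_mul_right _ (by omega)
  exact Nat.le_of_mul_le_mul_left f7 (by omega)

/-- The parameters. -/
lemma Hyp.params (H : Hyp a b t l1 l2 D P Q G W) :
    ∃ e n m X h R K : ℕ, 2 * e ≤ a ∧ 1 ≤ m ∧ 1 ≤ X ∧ 1 ≤ h ∧ a ≤ n ∧ n + 2 * h + 9 * K = b ∧
      e * b ≤ K * (a - 12) ∧ (m * (X + 1) + X) * n ≤ t ∧ t / n + m * (X + 1) + 1 ≤ t / a ∧
      l2 ≤ h * R ∧ t / a + n / m + 2 + R ≤ e ∧
      n * (n / m) + 2 * e * h + l2 + K * (5 * a - 6) + 9 * a ≤ l1 ∧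
      D * a + 7 * b ≤ D * n ∧ l1 * t ≤ 18 * (Q * D) * b ^ 3 * X := by
  have hQ0 := H.Q0
  have ha1 := H.a1
  have hab := H.ab
  obtain ⟨e, he1, heQ, he2, he3, he5⟩ := H.e
  obtain ⟨K₀, hK1, hK4, hK5⟩ := H.K he1
  obtain ⟨R, hR⟩ : ∃ R, R = e / 4 := ⟨_, rfl⟩
  have hR1 : 4 * R ≤ e := by omega
  have hR2 : e ≤ 5 * R := by omega
  have hR0 : 0 < R := by omega
  obtain ⟨h₀, hh1, hh2, hh4⟩ := H.h he3 hR2 hR0
  obtain ⟨n, hn, hn3, hn4, hnb⟩ := H.n hK5 hh4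
  obtain ⟨m, hm1, hm2, hm3, hm4⟩ := H.m
  obtain ⟨X, hX1, hX2, hX3⟩ := H.X hm1 hm4 hnb (by omega)
  have hea : 2 * e ≤ a := by
    refine le_trans ?_ he5
    exact Nat.mul_le_mul_left _ (Nat.le_mul_of_pos_left _ (by omega))
  have hn5 : (D + 7) * a ≤ D * n := by
    have h1 : (D + 7) * a = D * a + 7 * a := by ring
    omega
  have hB := H.cB hm2 hnb
  exact ⟨e, n, m, X, h₀ + 1, R, K₀ + 1, hea, hm1, hX1, by omega, hn4, by omega, hK1,
    H.c8 hX1 hm1 hX2, H.c9 hm3 hn5 hX2, hh1, H.c11 hB heQ he2 hR1,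
    H.c12 hB hnb he5 hR2 hh2 hK4, hn3, hX3⟩

end

lemma bpow (a b : ℕ) : b ^ a ≤ 3 ^ b * a ^ a := by
  have hf : (0 : ℝ) < (a.factorial : ℝ) := by exact_mod_cast a.factorial_pos
  have h2 : (b : ℝ) ^ a / (a.factorial : ℝ) ≤ Real.exp b :=
    Real.pow_div_factorial_le_exp _ (Nat.cast_nonneg b) a
  have h3 : Real.exp b ≤ 3 ^ b := by
    have : Real.exp (b : ℝ) = Real.exp 1 ^ b := by
      rw [← Real.exp_nat_mul, mul_one]
    rw [this]
    exact pow_le_pow_left₀ (Real.exp_pos 1).le (by linarith [Real.exp_one_lt_d9]) b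
  have hf2 : (a.factorial : ℝ) ≤ (a : ℝ) ^ a := by exact_mod_cast Nat.factorial_le_pow a
  have h4 : (b : ℝ) ^ a ≤ 3 ^ b * (a : ℝ) ^ a := by
    rw [div_le_iff₀ hf] at h2
    exact h2.trans (mul_le_mul h3 hf2 hf.le (by positivity))
  exact_mod_cast h4

/-- The growth. -/
lemma Hyp.growth {a b t l1 l2 D P Q G W : ℕ} (H : Hyp a b t l1 l2 D P Q G W) {n X : ℕ}
    (hn4 : a ≤ n) (hn : D * a + 7 * b ≤ D * n) (hX1 : 1 ≤ X)
    (hX : l1 * t ≤ 18 * (Q * D) * b ^ 3 * X) :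
    2 * a ^ 3 ≤ (l1 + a) * (t + a) ∧
      (55 * ((l1 + a) * (t + a))) ^ a * (a * b + 1) ^ 3 ≤ a ^ (3 * a) * X ^ n := by
  have hD := H.hD
  have hQ0 := H.Q0
  have ha1 := H.a1
  have hab := H.ab
  have hapos : 0 < a := by omega
  have hbpos : 0 < b := by omega
  have hQD : 1 ≤ Q * D := Nat.mul_pos (by omega) (by omega)
  have hW0 : 0 < W := by rw [H.hW]; omega
  have hal : a ≤ l1 := le_trans (Nat.le_mul_of_pos_left _ (by omega)) H.Qa
  have hat : a ≤ t := by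
    have h1 : b * (a * a) ≤ b * (a * t) := by
      calc b * (a * a) ≤ b * (b * b) := Nat.mul_le_mul_left _ (Nat.mul_le_mul hab hab)
        _ = b ^ 3 := by ring
        _ ≤ W * b ^ 3 := Nat.le_mul_of_pos_left _ hW0
        _ ≤ l1 * t := H.W1
        _ ≤ (a * b) * t := Nat.mul_le_mul_right _ (by have := H.hl1'; omega)
        _ = b * (a * t) := by ring
    have h2 : a * a ≤ a * t := Nat.le_of_mul_le_mul_left h1 hbpos
    exact Nat.le_of_mul_le_mul_left h2 hapos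
  refine ⟨?_, ?_⟩
  · calc 2 * a ^ 3 ≤ 213840 * (Q * D) * b ^ 3 :=
          Nat.mul_le_mul (by omega) (Nat.pow_le_pow_left hab 3)
      _ ≤ l1 * t := H.W2
      _ ≤ (l1 + a) * (t + a) := Nat.mul_le_mul (by omega) (by omega)
  obtain ⟨V, hV⟩ : ∃ V, V = 3960 * (Q * D) := ⟨_, rfl⟩
  have hWV : W = 27 * 2 * V := by rw [H.hW, hV]; ring
  have hV1 : 1 ≤ V := by omega
  have hV3 : 55 * ((l1 + a) * (t + a)) ≤ V * b ^ 3 * X := by
    calc 55 * ((l1 + a) * (t + a)) ≤ 55 * ((2 * l1) * (2 * t)) :=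
          Nat.mul_le_mul_left _ (Nat.mul_le_mul (by omega) (by omega))
      _ = 220 * (l1 * t) := by ring
      _ ≤ 220 * (18 * (Q * D) * b ^ 3 * X) := Nat.mul_le_mul_left _ hX
      _ = V * b ^ 3 * X := by rw [hV]; ring
  have hXW : W ^ D ≤ X := by
    have h1 : (W * b ^ 3) * W ^ D ≤ (W * b ^ 3) * X := by
      calc (W * b ^ 3) * W ^ D = W ^ (D + 1) * b ^ 3 := by ring
        _ ≤ l1 * t := H.hr
        _ ≤ 18 * (Q * D) * b ^ 3 * X := hX
        _ ≤ (W * b ^ 3) * X := by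
            refine Nat.mul_le_mul_right _ (Nat.mul_le_mul_right _ ?_)
            rw [H.hW]
            omega
    exact Nat.le_of_mul_le_mul_left h1 (Nat.mul_pos hW0 (Nat.pow_pos hbpos))
  obtain ⟨s, hs⟩ : ∃ s, n = a + s := ⟨n - a, by omega⟩
  have hWb : W ^ b ≤ X ^ s := by
    have h0 : b ≤ D * s := by
      have : D * n = D * a + D * s := by rw [hs]; ring
      omega
    have h1 : (W ^ b) ^ D ≤ (X ^ s) ^ D := by
      calc (W ^ b) ^ D = (W ^ D) ^ b := by rw [← pow_mul, ← pow_mul, mul_comm b D]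
        _ ≤ X ^ b := Nat.pow_le_pow_left hXW b
        _ ≤ X ^ (D * s) := Nat.pow_le_pow_right hX1 h0
        _ = (X ^ s) ^ D := by rw [← pow_mul, mul_comm D s]
    exact (Nat.pow_le_pow_iff_left (by omega)).1 h1
  have hab3 : (a * b + 1) ^ 3 ≤ 2 ^ b := by
    have h1 : a * b + 1 ≤ 2 * (b * b) := by
      have h2 : a * b ≤ b * b := Nat.mul_le_mul_right _ hab
      have h3 : 1 ≤ b * b := Nat.mul_pos hbpos hbpos
      omega
    calc (a * b + 1) ^ 3 ≤ (2 * (b * b)) ^ 3 := Nat.pow_le_pow_left h1 3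
      _ = 8 * b ^ 6 := by ring
      _ ≤ 2 ^ b := poly_le b (by omega)
  have hb3 : (b ^ 3) ^ a ≤ 27 ^ b * a ^ (3 * a) := by
    have e1 : (3 ^ b * a ^ a) ^ 3 = 27 ^ b * a ^ (3 * a) := by
      rw [mul_pow, ← pow_mul, ← pow_mul, mul_comm b 3, pow_mul, mul_comm a 3]
      norm_num
    calc (b ^ 3) ^ a = (b ^ a) ^ 3 := by rw [← pow_mul, ← pow_mul, mul_comm 3 a]
      _ ≤ (3 ^ b * a ^ a) ^ 3 := Nat.pow_le_pow_left (bpow a b) 3
      _ = 27 ^ b * a ^ (3 * a) := e1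
  have hVb : V ^ a ≤ V ^ b := Nat.pow_le_pow_right hV1 hab
  calc (55 * ((l1 + a) * (t + a))) ^ a * (a * b + 1) ^ 3
      ≤ (V * b ^ 3 * X) ^ a * 2 ^ b := Nat.mul_le_mul (Nat.pow_le_pow_left hV3 a) hab3
    _ = V ^ a * (b ^ 3) ^ a * X ^ a * 2 ^ b := by rw [mul_pow, mul_pow]
    _ ≤ V ^ b * (27 ^ b * a ^ (3 * a)) * X ^ a * 2 ^ b :=
        Nat.mul_le_mul_right _ (Nat.mul_le_mul_right _ (Nat.mul_le_mul hVb hb3))
    _ = (27 * 2 * V) ^ b * (a ^ (3 * a) * X ^ a) := by rw [mul_pow, mul_pow]; ring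
    _ = W ^ b * (a ^ (3 * a) * X ^ a) := by rw [← hWV]
    _ ≤ X ^ s * (a ^ (3 * a) * X ^ a) := Nat.mul_le_mul_right _ hWb
    _ = a ^ (3 * a) * X ^ n := by rw [hs, pow_add]; ring

/-- **(U1)** from `CoreS`. -/
theorem twoLongSU (h : CoreS) : TwoLongSU := by
  obtain ⟨a₀, h⟩ := h
  have ha₀ : (0 : ℝ) ≤ a₀ := Nat.cast_nonneg _
  refine ⟨10 ^ 10 + 2 * a₀, 4, by linarith, ?_⟩
  intro a b k lam Λ hlam hsum hab hΛ h1 h3 h2 h4 h6 hlog
  have hΛ0 : 0 < Λ := by linarith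
  have ha0 : (0 : ℝ) ≤ a := Nat.cast_nonneg _
  have hbr : (0 : ℝ) < (b : ℝ) - a := by
    have : (a : ℝ) < b := by exact_mod_cast hab
    linarith
  have hb0 : (0 : ℝ) < b := by linarith
  obtain ⟨u, hu⟩ : ∃ u : ℝ, u = b / ((b : ℝ) - a) := ⟨_, rfl⟩
  have hub : u * ((b : ℝ) - a) = b := by rw [hu]; exact div_mul_cancel₀ _ hbr.ne'
  have hu1 : 1 ≤ u := by rw [hu, le_div_iff₀ hbr]; linarith
  have huΛ : u ≤ Λ := by rw [hu, div_le_iff₀ hbr]; exact h2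
  obtain ⟨D, hD⟩ : ∃ D : ℕ, D = ⌈8 * u⌉₊ + 14 := ⟨_, rfl⟩
  have hD1 : 8 * u ≤ D := by
    have e1 : 8 * u ≤ (⌈8 * u⌉₊ : ℝ) := Nat.le_ceil _
    have e2 : ((⌈8 * u⌉₊ : ℕ) : ℝ) ≤ D := by exact_mod_cast (by omega : ⌈8 * u⌉₊ ≤ D)
    linarith
  have hD2 : (D : ℝ) ≤ 23 * u := by
    have e1 : (⌈8 * u⌉₊ : ℝ) < 8 * u + 1 := Nat.ceil_lt_add_one (by linarith)
    rw [hD]
    push_cast
    linarith
  have hD0 : (0 : ℝ) ≤ D := Nat.cast_nonneg _
  obtain ⟨P, hP⟩ : ∃ P : ℕ, P = ⌈Λ⌉₊ := ⟨_, rfl⟩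
  have hP1 : Λ ≤ P := by rw [hP]; exact Nat.le_ceil _
  have hP2 : (P : ℝ) ≤ 2 * Λ := by
    have := Nat.ceil_lt_add_one hΛ0.le
    rw [hP]
    linarith
  have hP3 : 1 ≤ P := by
    have : (1 : ℝ) ≤ P := hΛ.trans hP1
    exact_mod_cast this
  obtain ⟨Q, hQ⟩ : ∃ Q, Q = 1000 * D := ⟨_, rfl⟩
  obtain ⟨G, hG⟩ : ∃ G, G = (Q * Q) * (P * P) := ⟨_, rfl⟩
  obtain ⟨W, hW⟩ : ∃ W, W = 213840 * (Q * D) := ⟨_, rfl⟩
  have hGr : (G : ℝ) ≤ 10 ^ 10 * Λ ^ 4 := by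
    have e1 : (D : ℝ) ^ 2 ≤ (23 * Λ) ^ 2 := pow_le_pow_left₀ hD0 (by linarith) 2
    have e2 : (P : ℝ) ^ 2 ≤ (2 * Λ) ^ 2 := pow_le_pow_left₀ (by positivity) hP2 2
    have e3 : (G : ℝ) = 1000000 * ((D : ℝ) ^ 2 * (P : ℝ) ^ 2) := by
      rw [hG, hQ]
      push_cast
      ring
    rw [e3]
    calc 1000000 * ((D : ℝ) ^ 2 * (P : ℝ) ^ 2) ≤ 1000000 * ((23 * Λ) ^ 2 * (2 * Λ) ^ 2) :=
          mul_le_mul_of_nonneg_left (mul_le_mul e1 e2 (by positivity) (by positivity))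
            (by norm_num)
      _ = 2116000000 * Λ ^ 4 := by ring
      _ ≤ 10 ^ 10 * Λ ^ 4 := mul_le_mul_of_nonneg_right (by norm_num) (by positivity)
  have hΛc : 1 ≤ Λ ^ 4 := one_le_pow₀ hΛ
  obtain ⟨M, hM⟩ : ∃ M : ℝ, M = Λ ^ 4 := ⟨_, rfl⟩
  rw [← hM] at h1 h6 hGr hΛc
  have hGM : (G : ℝ) ≤ (10 ^ 10 + 2 * a₀) * M := by nlinarith
  have ha : 2 * a₀ ≤ a := by
    have : 2 * (a₀ : ℝ) ≤ a := by nlinarith
    exact_mod_cast this
  -- the logarithm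
  have hWr : (W : ℝ) ≤ (2 * u) ^ 40 := by
    have e1 : (D : ℝ) ^ 2 ≤ (23 * u) ^ 2 := pow_le_pow_left₀ hD0 hD2 2
    have e2 : u ^ 2 ≤ u ^ 40 := pow_le_pow_right₀ hu1 (by norm_num)
    have e3 : (W : ℝ) = 213840000 * (D : ℝ) ^ 2 := by
      rw [hW, hQ]
      push_cast
      ring
    rw [e3, mul_pow]
    calc 213840000 * (D : ℝ) ^ 2 ≤ 213840000 * (23 * u) ^ 2 :=
          mul_le_mul_of_nonneg_left e1 (by norm_num)
      _ = 113121360000 * u ^ 2 := by ring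
      _ ≤ 2 ^ 40 * u ^ 40 := mul_le_mul (by norm_num) e2 (by positivity) (by positivity)
  have hW0 : (0 : ℝ) < W := by
    have : 0 < W := by
      rw [hW, hQ]
      exact Nat.mul_pos (by norm_num) (Nat.mul_pos (by omega) (by omega))
    exact_mod_cast this
  have hb3 : (0 : ℝ) < (b : ℝ) ^ 3 := by positivity
  have hr : (W : ℝ) ^ (D + 1) * (b : ℝ) ^ 3 ≤ (lam 1 : ℝ) * dn2 lam := by
    have hρ0 : 0 ≤ (lam 1 : ℝ) * dn2 lam / (b : ℝ) ^ 3 := by positivity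
    have e0 : 2 * (b : ℝ) / ((b : ℝ) - a) = 2 * u := by rw [hu]; ring
    rw [e0] at hlog
    rw [← le_div_iff₀ hb3]
    generalize (lam 1 : ℝ) * dn2 lam / (b : ℝ) ^ 3 = ρ at hρ0 hlog ⊢
    have hl : 0 < Real.log (2 * u) := Real.log_pos (by linarith)
    have e1 : (10 ^ 10 + 2 * (a₀ : ℝ)) * u * Real.log (2 * u) ≤ Real.log ρ := by
      have e2 : ((b : ℝ) - a) * ((10 ^ 10 + 2 * (a₀ : ℝ)) * u * Real.log (2 * u)) ≤
          ((b : ℝ) - a) * Real.log ρ := by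
        calc ((b : ℝ) - a) * ((10 ^ 10 + 2 * (a₀ : ℝ)) * u * Real.log (2 * u))
            = (10 ^ 10 + 2 * (a₀ : ℝ)) * (u * ((b : ℝ) - a)) * Real.log (2 * u) := by ring
          _ = (10 ^ 10 + 2 * (a₀ : ℝ)) * b * Real.log (2 * u) := by rw [hub]
          _ ≤ ((b : ℝ) - a) * Real.log ρ := hlog
      exact le_of_mul_le_mul_left e2 hbr
    have hul : 0 < u * Real.log (2 * u) := mul_pos (by linarith) hl
    have e3 : 960 * (u * Real.log (2 * u)) ≤ Real.log ρ := by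
      refine le_trans ?_ e1
      rw [mul_assoc]
      exact mul_le_mul_of_nonneg_right (by linarith) hul.le
    have hρ : 0 < ρ := by
      rcases hρ0.lt_or_eq with h0 | h0
      · exact h0
      · rw [← h0, Real.log_zero] at e3
        linarith
    have e4 : Real.log ((W : ℝ) ^ (D + 1)) ≤ Real.log ρ := by
      refine le_trans ?_ e3
      rw [Real.log_pow]
      have e5 : Real.log (W : ℝ) ≤ 40 * Real.log (2 * u) := by
        have := Real.log_le_log hW0 hWr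
        rw [Real.log_pow] at this
        exact_mod_cast this
      have e6 : ((D + 1 : ℕ) : ℝ) ≤ 24 * u := by push_cast; linarith
      calc ((D + 1 : ℕ) : ℝ) * Real.log (W : ℝ)
          ≤ ((D + 1 : ℕ) : ℝ) * (40 * Real.log (2 * u)) :=
            mul_le_mul_of_nonneg_left e5 (Nat.cast_nonneg _)
        _ ≤ (24 * u) * (40 * Real.log (2 * u)) :=
            mul_le_mul_of_nonneg_right e6 (by linarith)
        _ = 960 * (u * Real.log (2 * u)) := by ring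
    exact (Real.log_le_log_iff (by positivity) hρ).1 e4
  have hl01 : lam 1 ≤ lam 0 := hlam (Fin.zero_le _)
  have H : Hyp a b (dn2 lam) (lam 1) (lam 2) D P Q G W := by
    refine ⟨by omega, hP3, hQ, hG, hW, ?_, ?_, ?_, ?_, ?_, ?_, ?_, ?_⟩
    · exact_mod_cast hGM.trans h1
    · have : (G : ℝ) * dn2 lam ≤ (a : ℝ) * a := by
        rw [← pow_two]
        exact (mul_le_mul_of_nonneg_right hGM (Nat.cast_nonneg _)).trans h6
      exact_mod_cast this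
    · have : (b : ℝ) ≤ P * a := h3.trans (mul_le_mul_of_nonneg_right hP1 (Nat.cast_nonneg _))
      exact_mod_cast this
    · have : (D : ℝ) * a + 8 * b ≤ D * b := by
        have e1 : 8 * u * ((b : ℝ) - a) ≤ D * ((b : ℝ) - a) :=
          mul_le_mul_of_nonneg_right hD1 hbr.le
        have e2 : 8 * u * ((b : ℝ) - a) = 8 * b := by rw [mul_assoc, hub]
        linarith
      exact_mod_cast this
    · have : (a : ℝ) * a ≤ P * lam 1 := by
        rw [← pow_two]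
        exact h4.trans (mul_le_mul_of_nonneg_right hP1 (Nat.cast_nonneg _))
      exact_mod_cast this
    · have e1 : ∑ i, lam i = lam 0 + (lam 1 + ∑ i : Fin (k + 1), lam i.succ.succ) := by
        rw [Fin.sum_univ_succ, Fin.sum_univ_succ]
        rfl
      omega
    · exact Finset.single_le_sum (f := fun i : Fin (k + 1) => lam i.succ.succ)
        (fun _ _ => Nat.zero_le _) (Finset.mem_univ 0)
    · exact_mod_cast hr
  obtain ⟨e, n, m, X, h', R, K, c1, c2, c3, c4, c5, c6, c7, c8, c9, c10, c11, c12, c13, c14⟩ :=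
    H.params
  have ha1 := H.a1
  have hQ0 := H.Q0
  obtain ⟨g1, g2⟩ := H.growth c5 c13 c3 c14
  exact h a b k e n m X h' R K lam hl01 hsum (by omega) (by omega) c2 c3 c4 c5 c6 c7
    c8 c9 c10 c11 c12 g1 g2

end Vale.Agent.P181.H382.H146.V
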